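import Vale.Agent.P205.Bdl.B10

open scoped ContDiff Manifold
open Bundle

namespace Vale.Agent.Results.P205.ClosedSurfaces

universe u

/-- Every closed smooth Riemannian surface has a smooth isometric immersion into `ℝ⁴`. -/
theorem result {E : Type} [NormedAddCommGroup E] [NormedSpace ℝ E] (hE : Module.finrank ℝ E = 2)
    {M : Type u} [TopologicalSpace M] [T2Space M] [CompactSpace M] [ChartedSpace E M]
    [IsManifold 𝓘(ℝ, E) ∞ M]
    (g : ContMDiffRiemannianMetric 𝓘(ℝ, E) ∞ E (fun x : M => TangentSpace 𝓘(ℝ, E) x)) :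
    ∃ X : Fin 4 → M → ℝ, (∀ i, ContMDiff 𝓘(ℝ, E) 𝓘(ℝ) ∞ (X i)) ∧
      ∀ (m : M) (v w : TangentSpace 𝓘(ℝ, E) m),
        ∑ i, mvfderiv 𝓘(ℝ, E) (X i) m v * mvfderiv 𝓘(ℝ, E) (X i) m w = g.inner m v w :=
  Vale.Agent.P205.TW.full hE g

end Vale.Agent.Results.P205.ClosedSurfaces
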